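import Crest.Agent.X212.Tcc1.Tc2

/-!
# X212 / Tcc1 (helper1): cutting along a disc, components (`Hk.Tc3Stmt`)
-/

set_option autoImplicit false
set_option linter.unusedSectionVars false

open Finset Classical

noncomputable section

namespace Crest.Agent.X212.Tcc1

open Crest.Agent.X212.Hp13 hiding cl_low sub_cl om_low exOn_add exOn_neg exOn_congr exOn_pb
open Hk
open Alg36 (Om)
open Kh11 (WS ce_top)

section reg

variable {P : Type} [PartialOrder P] [Fintype P] {X C D : Set P} {x y a : P}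

/-- the points over a point of `cl C` are in `C` -/
theorem ovr (r : Rg X) (h : IsCmp X C) (k : x ∈ cl C) (ha : a ∈ X) (l : x ≤ a) : a ∈ C := by
  obtain ⟨u, hu, m⟩ := k
  rw [h.eq hu]
  exact ⟨ha, ((r.ctr ⟨a, ha, l⟩).conn u ⟨h.sub hu, m⟩ a ⟨ha, l⟩).mono fun _ i => i.1⟩

theorem cl_up (r : Rg X) (h : IsCmp X C) (k : x ∈ cl C) (hy : y ∈ cl X) (l : x ≤ y) : y ∈ cl C :=
  let ⟨a, ha, m⟩ := hy; ⟨a, ovr r h k ha (l.trans m), m⟩

theorem cl_iff (r : Rg X) (h : IsCmp X C) (hy : y ∈ cl X) (l : x ≤ y) : x ∈ cl C ↔ y ∈ cl C :=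
  ⟨fun k => cl_up r h k hy l, cl_low l⟩

theorem cmp_uniq (r : Rg X) (h : IsCmp X C) (h' : IsCmp X D) (k : x ∈ cl C) (k' : x ∈ cl D) :
    C = D :=
  let ⟨_, hu, m⟩ := k'; (h.eq (ovr r h k (h'.sub hu) m)).trans (h'.eq hu).symm

theorem om_cmp (r : Rg X) (h : IsCmp X C) : x ∈ Om C ↔ x ∉ X ∧ x ∈ cl C :=
  and_congr_left fun k => ⟨fun n m => n (ovr r h k m le_rfl), fun n m => n (h.sub m)⟩

/-- a component of a region is a region -/
theorem rg_cmp (r : Rg X) (h : IsCmp X C) : Rg C :=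
  rg_of (h.upper r.up) (r.mf.mono h.sub) fun x k => by
    convert r.ctr (Hk.cl_mono h.sub k.2) using 3 with a
    exact ⟨fun i => ⟨h.sub i.1, i.2⟩, fun i => ⟨ovr r h k.2 i.1 i.2, i.2⟩⟩

/-- a connected part of the boundary lies on one component -/
theorem ex_cmp (r : Rg X) (hD : D ⊆ Om X) (hc : Conn D) (hn : D.Nonempty) :
    ∃ C, IsCmp X C ∧ D ⊆ Om C := by
  obtain ⟨x, hx⟩ := hn
  obtain ⟨a, ha, l⟩ := (hD hx).2
  have h := isCmp_cmp ha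
  exact ⟨_, h, fun y hy => (om_cmp r h).2 ⟨(hD hy).1, (hc x hx y hy).ind (p := (· ∈ cl (cmp X a)))
    ⟨a, mem_cmp_self ha, l⟩ fun _ _ _ k m => cl_iff r h (hD k).2 m⟩⟩

theorem ws_val {Q E : Set P} (h : E ⊆ Q) : WS (Subtype.val ⁻¹' E : Set Q) E Subtype.val :=
  WS.of_iso (fun _ k => k) (fun y k => ⟨⟨y, h k⟩, k, rfl⟩) fun _ _ _ _ => Iff.rfl

/-- the complement of a disc in a sphere -/
theorem ctr_side {O U : Set P} (mf : MfIn O Set.univ) (h : U ⊆ O) (hc : Conn U) (e : 2 ≤ eu O)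
    (k : Ctr (O \ U)) (hx : x ∈ U) (hy : y ∈ O) (n : y ∉ U) (l : x ≤ y) : Ctr U := by
  have mf : Mf 2 (Set.univ : Set O) := mf
  have col : Sf30.Col (Set.univ : Set O) (Subtype.val ⁻¹' U) (Subtype.val ⁻¹' (O \ U)) :=
    ⟨Set.eq_univ_of_forall fun c => (Classical.em _).imp id fun n => ⟨c.2, n⟩,
      Set.disjoint_left.2 fun _ a b => b.2 a⟩
  have e1 := Sf30.eu_col mf col
  have e2 := Sf30.wt_nonneg mf col
  have e3 := (ws_val (subset_refl O)).eu_eq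
  have e4 := (ws_val (Set.sdiff_subset : O \ U ⊆ O)).eu_eq
  rw [Subtype.coe_preimage_self] at e3
  rw [k.eu] at e4
  have cn := (ws_val h).conn_iff.2 hc
  exact (ws_val h).ctr_iff.1 (Alg36.Mf.ctr_of_eu mf (Set.subset_univ _) cn
    (Sf30.esc_of (a := ⟨x, h hx⟩) (x := ⟨y, hy⟩) (Set.subset_univ _) cn hx n (Or.inl l))
    (by omega))

end reg

variable {P : Type} [PartialOrder P] [Fintype P] {X G : Set P} {w : P → P → ℤ}
  {c d : Ch (Ch (Ch P))} {b : ℤ} {C : Set (Ch (Ch (Ch P)))}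

theorem ws_t3 (E : Set P) : WS (t3 ⁻¹' E) E t3 := (ce_top.comp (ce_top.comp ce_top)).ws_pre E

/-- a union of components together with the slab -/
theorem walk (s : S1 X w) (r : Rg (tcut X w)) {L : Set (Set (Ch (Ch (Ch P))))}
    (hL : ∀ C ∈ L, IsCmp (tcut X w) C) (q : Prop)
    (h : ∀ c ∈ slab X w, c ∈ cl (tcut X w) → ((∃ C ∈ L, c ∈ cl C) ↔ q))
    (k : Rch (t3 ⁻¹' cl X) c d) (hc : c ∈ slab X w ∧ q ∨ ∃ C ∈ L, c ∈ cl C) :
    d ∈ slab X w ∧ q ∨ ∃ C ∈ L, d ∈ cl C := by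
  refine k.ind (p := fun c => c ∈ slab X w ∧ q ∨ ∃ C ∈ L, c ∈ cl C) hc fun x _ y hy l =>
    ⟨fun m => ?_, Or.imp (And.imp_left (mvS_low l)) fun ⟨C, i, j⟩ => ⟨C, i, cl_low l j⟩⟩
  by_cases n : y ∈ cl (tcut X w)
  · obtain ⟨C, i, j⟩ := m.elim (fun m => (h x m.1 (cl_low l n)).2 m.2) id
    exact Or.inr ⟨C, i, cl_up r (hL C i) j n l⟩
  · have t := cover s hy n
    exact Or.inl ⟨t, m.elim And.right fun ⟨C, i, j⟩ =>
      (h x (mvS_low l t) (Hk.cl_mono (hL C i).sub j)).1 ⟨C, i, j⟩⟩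

theorem p2_K (s : S1 X w) (k : c ∈ cl (tcut X w)) : Ch.pt (Ch.pt c.bot.bot) ∈ cl (tcut X w) := by
  obtain ⟨a, m⟩ := (mem_K s).1 k
  exact (mem_K s).2 ⟨by simpa using cl_low (bb_le c) a, by simpa using m⟩

/-- `cl C` is read at `bot ∘ bot` -/
theorem cl_bb (s : S1 X w) (r : Rg (tcut X w)) (h : IsCmp (tcut X w) C) (k : c ∈ cl (tcut X w)) :
    c ∈ cl C ↔ Ch.pt (Ch.pt c.bot.bot) ∈ cl C := by
  obtain ⟨a, m⟩ := (mem_K s).1 k
  have p : Ch.pt c.bot.bot ≤ c.bot := Ch.pt_le.2 (Ch.bot_mem _)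
  have e : Ch.pr _ _ p ∈ cl (tcut X w) :=
    (mem_K s).2 ⟨by simpa using cl_low (tb_le c) a, by simpa using m⟩
  rw [← cl_iff r h k (Ch.pt_le.2 c.bot_mem), cl_iff r h e (Ch.pt_le.2 (by simp)),
    cl_iff r h e (x := Ch.pt (Ch.pt c.bot.bot)) (Ch.pt_le.2 (by simp))]

theorem cl_pt (s : S1 X w) (r : Rg (tcut X w)) (h : IsCmp (tcut X w) C) {e : Ch P} {x : P}
    (a : e.top ∈ cl X) (m : e ∉ mx w) (hx : x ∈ e.1) :
    Ch.pt (Ch.pt e) ∈ cl C ↔ Ch.pt (Ch.pt (Ch.pt x)) ∈ cl C := by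
  have p : Ch.pt x ≤ e := Ch.pt_le.2 hx
  have p' : Ch.pt e ≤ Ch.pr _ _ p := Ch.pt_le.2 (by simp)
  have i : Ch.pr _ _ p' ∈ cl (tcut X w) := (mem_K s).2 ⟨by simpa using a, by simpa using m⟩
  have l : Ch.pt (Ch.pr _ _ p) ≤ Ch.pr _ _ p' := Ch.pt_le.2 (by simp)
  have e1 := cl_bb s r h i
  have e2 := cl_bb s r h (cl_low l i)
  simp only [Ch.bot_pr, Ch.bot_pt] at e1 e2
  rw [← e1, ← e2, cl_iff r h i l]

/-- the cell of the scar at the end `x` of a jump -/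
theorem scar_pt (s : S1 X w) {e : Ch P} {x : P} (a : e.top ∈ cl X) (m : e ∈ mx w) (hx : x ∈ e.1) :
    Ch.pt (Ch.pr _ _ (Ch.pt_le.2 hx)) ∈ scar X w (w e.bot x) := by
  refine (mem_scar s).2 ⟨⟨(mem_slab s).2 ⟨by simpa using a, by simpa using m⟩,
    (mem_K s).2 ⟨by simpa using a, ?_⟩⟩, by simp [lev]⟩
  simp [mx, s.self (cl_low (Ch.le_top hx) a)]

theorem slab_G (s : S1 X w) (hX : IsUpperSet X) (g : Bd X G) (o : On X G w) (k : c ∈ slab X w)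
    (n : t3 c ∉ X) : t3 c ∈ G := by
  obtain ⟨a, m⟩ := (mem_slab s).1 k
  have t : t3 c ∈ Om X := ⟨n, a⟩
  have : c.bot.top ∈ Cv (Om X) w := (mem_cv (om_low hX)).2 ⟨om_low hX (tb_le c) t, m⟩
  rw [o.cv g] at this
  exact g.clo _ (this.1 _ (Ch.top_mem _)) _ t (tb_le c)

theorem tc3 (h1 : Tc1Stmt) (hN : NmStmt) (hW : MvWStmt) : Tc3Stmt := by
  intro P _ _ X w r h
  obtain ⟨-, R, -, -, -, cS, -, -, -, sc⟩ := h1 P X w r h
  have s := h.toS1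
  obtain ⟨-, c0, o0, -⟩ := sc 0 (Or.inl rfl)
  obtain ⟨-, c1, o1, -⟩ := sc 1 (Or.inr rfl)
  obtain ⟨C₀, i0, j0⟩ := ex_cmp R o0 c0.conn c0.ne
  obtain ⟨C₁, i1, j1⟩ := ex_cmp R o1 c1.conn c1.ne
  have up : ∀ {c d}, Rch X (t3 c) (t3 d) → t3 c ∈ X → t3 d ∈ X → Rch (t3 ⁻¹' cl X) c d :=
    fun k a b => (((ws_t3 X).rch_iff a b).2 k).mono fun _ i => sub_cl i
  refine ⟨fun hc => ⟨C₀, C₁, i0, i1, Set.Subset.antisymm (Set.union_subset i0.sub i1.sub)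
    fun d hd => ?_, j0, j1⟩, fun ne => ?_, fun G C b hb g cG o hC he j dj sub => ?_⟩
  · obtain ⟨c, hc'⟩ := i0.ne
    have a := ((mem_tcut s).1 (i0.sub hc')).1
    have b := ((mem_tcut s).1 hd).1
    obtain ⟨C, i, j⟩ := (walk s R (L := {C₀, C₁}) (by rintro _ (rfl | rfl); exacts [i0, i1]) True
      (fun c p q => iff_true_intro ((scar_cases s p q).elim (fun k => ⟨C₀, Or.inl rfl, (j0 k).2⟩)
        fun k => ⟨C₁, Or.inr rfl, (j1 k).2⟩)) (up (hc _ a _ b) a b)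
      (Or.inr ⟨C₀, Or.inl rfl, sub_cl hc'⟩)).resolve_left fun k => not_slab s hd k.1
    rcases i with rfl | rfl
    exacts [Or.inl (ovr R i0 j hd le_rfl), Or.inr (ovr R i1 j hd le_rfl)]
  · obtain rfl : C₀ = C₁ := by
      by_contra n
      have : ExOn (t3 ⁻¹' cl X) (w3 w) := glue s (g := ind (cl C₁)) (g' := lev w)
        (fun x p y q l => by
          rw [flat_K s x p y q l]; exact (cb_ind_eq_zero.2 (cl_iff R i1 q l)).symm)
        (fun x _ y q l => lev_add s q l) fun c p q => by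
          rcases scar_cases s p q with k | k
          · rw [((mem_scar s).1 k).2, ind_of_not fun m => n (cmp_uniq R i0 i1 (j0 k).2 m)]
          · rw [((mem_scar s).1 k).2, ind_of_mem (E := cl C₁) (j1 k).2]
      exact ne ((ws_t3 _).ex s.coc ((exOn_iff_of_sub (drv s)).1 this))
    have : Nonempty (Ch (Ch (Ch P))) := ⟨c0.ne.some⟩
    choose! pt hpt using fun (C : Set (Ch (Ch (Ch P)))) (k : IsCmp (tcut X w) C) => k.ne
    refine Set.ncard_le_ncard_of_injOn (fun C => cmp X (t3 (pt C)))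
      (fun C k => isCmp_cmp ((mem_tcut s).1 (IsCmp.sub k (hpt C k))).1) fun C k D k' e => ?_
    have a := ((mem_tcut s).1 (IsCmp.sub k (hpt C k))).1
    have b := ((mem_tcut s).1 (IsCmp.sub k' (hpt D k'))).1
    have m : t3 (pt D) ∈ Hp13.cmp X (t3 (pt C)) :=
      (show Hp13.cmp X _ = Hp13.cmp X _ from e) ▸ mem_cmp_self b
    obtain ⟨E, rfl, j⟩ := (walk s R (L := {C}) (by rintro _ rfl; exact k) (C = C₀)
      (fun c p q =>
        have t : c ∈ cl C₀ := (scar_cases s p q).elim (fun k => (j0 k).2) fun k => (j1 k).2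
        ⟨fun ⟨_, i, j⟩ => cmp_uniq R k i0 (i ▸ j) t, fun i => ⟨C, rfl, i ▸ t⟩⟩) (up m.2 a b)
      (Or.inr ⟨C, rfl, sub_cl (hpt C k)⟩)).resolve_left fun i =>
        not_slab s (IsCmp.sub k' (hpt D k')) i.1
    exact cmp_uniq R k k' j (sub_cl (hpt D k'))
  obtain ⟨lo, -, -, -, cI, cK, x₀, x1, y₀, y1, x2, xy⟩ := sc b hb
  obtain ⟨mf, -, -, eO, -⟩ := (hN _).1 C (rg_cmp R hC)
  have sl : ∀ c ∈ scar X w b, c ∈ slab X w := fun c k => ((mem_scar s).1 k).1.1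
  have sb : ∀ c ∈ cl C, c ∈ slab X w → c ∈ scar X w b := fun c p q => by
    have p' := Hk.cl_mono hC.sub p
    have n : c ∉ scar X w (1 - b) := fun k => Set.disjoint_left.1 dj k
      ((om_cmp R hC).2 ⟨fun i => not_slab s i q, p⟩)
    rcases hb with rfl | rfl
    exacts [(scar_cases s q p').resolve_right n, (scar_cases s q p').resolve_left n]
  let U : Set (Ch (Ch (Ch P))) := cl C ∩ t3 ⁻¹' G
  have uO : U ⊆ Om C := fun c k => (om_cmp R hC).2 ⟨fun i => g.not k.2 ((mem_tcut s).1 i).1, k.1⟩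
  have x3 : x₀ ∈ U := ⟨(j x1).2, slab_G s r.up g o (sl _ x1) x2⟩
  have kU : scar X w b ∩ t3 ⁻¹' Om X ⊆ U := fun c k =>
    ⟨(j k.1).2, slab_G s r.up g o (sl _ k.1) k.2.1⟩
  have toK : ∀ c ∈ U, Rch U c x₀ := fun c k => by
    by_contra n
    have := ((ws_t3 G).conn_iff.2 cG c k.2 x₀ x3.2).ind (p := fun t => t ∈ U ∧ Rch U c t)
      ⟨k, Rch.rfl⟩ fun x p y q l => ⟨fun m => ?_, fun m =>
        have i : x ∈ U := ⟨cl_low l m.1.1, p⟩; ⟨i, m.2.trans (Rch.of_cm m.1 i (Or.inr l))⟩⟩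
    · exact n this.2
    by_cases t : y ∈ cl (tcut X w)
    · have i : y ∈ U := ⟨cl_up R hC m.1.1 t l, q⟩
      exact ⟨i, m.2.trans (Rch.of_cm m.1 i (Or.inl l))⟩
    · exact absurd (m.2.trans ((cK x ⟨sb x m.1.1 (mvS_low l (cover s (g.sub_cl q) t)), g.sub p⟩
        x₀ ⟨x1, g.sub x3.2⟩).mono kU)) n
  have cU : Conn U := fun c k d k' => (toK c k).trans (toK d k').symm
  have df : Om C \ U = scar X w b ∩ t3 ⁻¹' X := Set.ext fun c =>
    ⟨fun k =>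
      have i := (sub k.1).resolve_left fun i => k.2 ⟨k.1.2, i⟩
      ⟨i, by_contra fun n => k.2 ⟨k.1.2, slab_G s r.up g o (sl _ i) n⟩⟩,
    fun k => ⟨j k.1, fun i => g.not i.2 k.2⟩⟩
  have ctU : Ctr U := ctr_side mf uO cU (by omega) (df ▸ cI) x3 (j y1.1) (fun i => g.not i.2 y1.2) xy
  let Z : Set P := {x | x ∈ G ∧ Ch.pt (Ch.pt (Ch.pt x)) ∈ cl C}
  have jump : ∀ e : Ch P, e.top ∈ G → e ∈ mx w → ∀ x ∈ e.1, (x ∈ Z ↔ w e.bot x = b) := by
    intro e a m x hx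
    have p := scar_pt s (g.sub_cl a) m hx
    have q := cl_bb s R hC ((mem_scar s).1 p).1.2
    simp only [Ch.bot_pr, Ch.bot_pt] at q
    refine (and_iff_right (g.low (Ch.le_top hx) a)).trans (q.symm.trans ⟨fun k => ?_, fun k => ?_⟩)
    · exact ((mem_scar s).1 p).2.symm.trans ((mem_scar s).1 (sb _ k ((mem_scar s).1 p).1.1)).2
    · exact (j (k ▸ p)).2
  have flat : ∀ e : Ch P, e.top ∈ G → e ∉ mx w → ∀ x ∈ e.1,
      (x ∈ Z ↔ Ch.pt (Ch.pt e) ∈ cl C) := fun e a m x hx =>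
    (and_iff_right (g.low (Ch.le_top hx) a)).trans (cl_pt s R hC (g.sub_cl a) m hx).symm
  have nj : ∀ e : Ch P, (∀ x ∈ e.1, x ∈ Z) → e ∉ mx w := fun e k m => by
    have a := (k _ e.top_mem).1
    have e1 := (jump e a m _ e.top_mem).1 (k _ e.top_mem)
    have e2 := (jump e a m _ e.bot_mem).1 (k _ e.bot_mem)
    have e3 := s.self (g.sub_cl (k _ e.bot_mem).1)
    have : 0 < w e.bot e.top := m
    omega
  have eU : U = mvK (Ch.top ⁻¹' G) (Kh11.In Z Set.univ)ᶜ := Set.ext fun c => by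
    refine ⟨fun k => ?_, fun ⟨a, e, e1, e2⟩ => ⟨?_, a⟩⟩
    · have p := Hk.cl_mono hC.sub k.1
      exact ⟨k.2, _, Ch.bot_mem _, not_not.2 ⟨fun x hx => (flat _ (g.low (bb_le c) k.2)
        ((mem_K s).1 p).2 x hx).2 ((cl_bb s R hC p).1 k.1), trivial⟩⟩
    · have i : ∀ x ∈ c.bot.bot.1, x ∈ Z := fun x hx => (not_not.1 e2).1 x (Ch.bot_le e1 hx)
      exact (cl_bb s R hC ((mem_K s).2 ⟨g.sub_cl a, nj _ i⟩)).2
        ((flat _ (g.low (bb_le c) a) (nj _ i) _ (Ch.top_mem _)).1 (i _ (Ch.top_mem _)))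
  have ws := (hW _ (Ch.top ⁻¹' G) (Kh11.In Z Set.univ)ᶜ (g.low.preimage Ch.top_mono)
    fun x k y _ l m => k ⟨fun t ht => m.1 t (l ht), trivial⟩).1
  have eF : Ch.top ⁻¹' G \ (Kh11.In Z Set.univ)ᶜ = Kh11.In Z Set.univ :=
    Set.ext fun e => ⟨fun k => not_not.1 k.2, fun k => ⟨(k.1 _ e.top_mem).1, not_not.2 k⟩⟩
  rw [← eU, eF] at ws
  refine ⟨Z, fun _ k => k.1, (Kh11.ws_top Z).ctr_iff.1 (ws.ctr_iff.1 ctU), ?_⟩
  have key : ∀ x ∈ G, ∀ y ∈ G, x ≤ y → (w x y = 0 ∧ (x ∈ Z ↔ y ∈ Z)) ∨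
      (w x y = 1 ∧ (x ∈ Z ↔ 0 = b) ∧ (y ∈ Z ↔ 1 = b)) := fun x p y q l => by
    have t : (Ch.pr x y l).top ∈ G := by simpa using q
    refine (s.cases (g.sub_cl q) l).imp (fun k => ⟨k, ?_⟩) fun k => ⟨k, ?_⟩
    · have m : Ch.pr x y l ∉ mx w := by simp [mx, k]
      exact (flat _ t m x (by simp)).trans (flat _ t m y (by simp)).symm
    · have m : Ch.pr x y l ∈ mx w := by simp [mx, k]
      have e1 := jump _ t m x (by simp)
      have e2 := jump _ t m y (by simp)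
      rw [Ch.bot_pr] at e1 e2
      exact ⟨s.self (g.sub_cl p) ▸ e1, k ▸ e2⟩
  rcases hb with rfl | rfl
  · refine Or.inr fun x p y q l => ?_
    rcases key x p y q l with ⟨k, m⟩ | ⟨k, m, n⟩
    · rw [k]; exact (neg_eq_zero.2 (cb_ind_eq_zero.2 m)).symm
    · simp [k, cb, ind_of_mem (m.2 rfl), ind_of_not fun i => one_ne_zero (n.1 i)]
  · refine Or.inl fun x p y q l => ?_
    rcases key x p y q l with ⟨k, m⟩ | ⟨k, m, n⟩
    · rw [k]; exact (cb_ind_eq_zero.2 m).symm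
    · rw [k]; exact (cb_ind_eq_one.2 ⟨fun i => zero_ne_one (m.1 i), n.2 rfl⟩).symm

end Crest.Agent.X212.Tcc1
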