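import Crest.Agent.X212.Hp13.TraD
import Crest.Agent.X212.Kh11.Bas

/-!
# X212 / Tcc1 (helper1): cutting along a disc, cohomology (`Hk.Tc2Stmt`)
-/

set_option autoImplicit false
set_option linter.unusedSectionVars false

open Finset Classical

noncomputable section

namespace Crest.Agent.X212.Tcc1

open Crest.Agent.X212.Hp13 hiding cl_low sub_cl om_low exOn_add exOn_neg exOn_congr exOn_pb
open Hk
open Alg36 (Om)
open Cut21 (tp bt le_tp le_bt top_tp bot_tp top_bt bot_bt)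
open Kh11 (WS ce_top)

variable {P : Type} [PartialOrder P] [Fintype P] {X G : Set P} {w : P → P → ℤ}
  {c d : Ch (Ch (Ch P))} {b : ℤ}

theorem td_top (hX : IsUpperSet X) (h : TD X w) :
    TD (Ch.top ⁻¹' X : Set (Ch P)) (pb Ch.top w) := by
  refine ⟨⟨by rw [cl_sd]; exact cocOn_pb h.coc Ch.top_mono, fun x y k l => ?_,
    fun x y k l => ?_⟩, ?_, (chi_top w).trans h.chi, ?_⟩
  · exact h.nn _ _ (by rwa [cl_sd] at k) (Ch.top_mono l)
  · exact h.le1 _ _ (by rwa [cl_sd] at k) (Ch.top_mono l)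
  · convert (ce_top.ws (h.ca_up hX).ordConnected).conn_iff.2 h.conn using 1
    ext c
    simp only [CA, pb, Set.mem_preimage, Set.mem_ofPred_eq, Ch.top_img, Ch.bot_img]
  · obtain ⟨q, k, l⟩ := h.ne
    obtain ⟨e, rfl⟩ := ce_top.lift q
    rw [Ch.top_img, Ch.bot_img] at l
    exact ⟨e, fun x hx => by rw [om_sd']; exact k _ (Ch.mem_img.2 ⟨x, hx, rfl⟩), l⟩

theorem ines_top (h : S1 X w) (a : G ⊆ cl X)
    (k : Ines (Ch.top ⁻¹' G : Set (Ch P)) (pb Ch.top w)) : Ines G w := by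
  obtain ⟨Z, z1, z2, z3⟩ := k
  have i : ∀ c : Ch P, c.top ∈ G → (Ch.pt c.top ∈ Z ↔ c ∈ Z) := fun c k =>
    (z3.iff (show (Ch.pt c.top).top ∈ G by simpa using k) k (Ch.pt_le.2 c.top_mem)).1
      (by simpa [pb] using h.self (a k))
  obtain ⟨Z₀, z0, rfl⟩ : ∃ Z₀ ⊆ G, Z = Ch.top ⁻¹' Z₀ := ⟨{x | x ∈ G ∧ Ch.pt x ∈ Z},
    fun _ k => k.1, Set.ext fun c => ⟨fun k => ⟨z1 k, (i c (z1 k)).2 k⟩, fun k => (i c k.1).1 k.2⟩⟩
  refine ⟨Z₀, z0, (ce_top.ws_pre _).ctr_iff.1 z2, ?_⟩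
  refine z3.imp (fun k x hx y hy l => ?_) fun k x hx y hy l => ?_ <;>
    simpa [pb, cb, ind] using k (Ch.pt x) (show (Ch.pt x).top ∈ G by simpa using hx)
      (Ch.pr x y l) (show (Ch.pr x y l).top ∈ G by simpa using hy) (Ch.pt_le.2 (by simp))

/-- subdivision is a move -/
theorem tr_top (hX : IsUpperSet X) (h : TD X w) :
    Tr X ∅ w (lv0 P).sd Ch.top (pb Ch.top w) :=
  ⟨Desc.sd (lv0 P), td_top hX h, fun _ _ _ k => k.pb Ch.top_mono,
    fun _ a _ k => ines_top h.toS1 a.sub_cl k, Or.inl (by rw [sub_self]; exact exOn_zero)⟩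

/-! ### the cells of level three -/

theorem tb_le (c : Ch (Ch (Ch P))) : c.bot.top.top ≤ t3 c :=
  Ch.top_mono (Ch.top_mono c.bot_le_top)

theorem bb_le (c : Ch (Ch (Ch P))) : c.bot.bot.top ≤ t3 c :=
  (Ch.top_mono c.bot.bot_le_top).trans (tb_le c)

theorem bb_mono (l : c ≤ d) : c.bot.bot ≤ d.bot.bot := Ch.bot_anti (Ch.bot_anti l)

theorem bt_anti (l : c ≤ d) : d.bot.top ≤ c.bot.top := Ch.top_mono (Ch.bot_anti l)

theorem cv_iff {e : Ch P} (k : e.top ∈ cl X) : e ∈ Cv (cl X) w ↔ e ∈ mx w :=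
  (mem_cv cl_low).trans (and_iff_right k)

theorem ex_in (h : S1 X w) (k : t3 c ∈ cl X) :
    (∃ x ∈ c.bot.1, x ∈ Cv (cl X) w) ↔ c.bot.top ∈ mx w :=
  have t := cl_low (tb_le c) k
  ⟨fun ⟨_, a, m⟩ => h.up t (Ch.le_top a) m.2, fun m => ⟨_, Ch.top_mem _, (cv_iff t).2 m⟩⟩

theorem ex_out (h : S1 X w) (k : t3 c ∈ cl X) :
    (∃ x ∈ c.bot.1, x ∉ Cv (cl X) w) ↔ c.bot.bot ∉ mx w :=
  ⟨fun ⟨_, a, m⟩ n =>
    have t := cl_low ((Ch.top_mono (Ch.le_top a)).trans (tb_le c)) k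
    m ((cv_iff t).2 (h.up t (Ch.bot_le a) n)), fun m => ⟨_, Ch.bot_mem _, fun n => m n.2⟩⟩

theorem t2_cl : t2 c ∈ cl (Ch.top ⁻¹' X) ↔ t3 c ∈ cl X := by rw [cl_sd]; rfl

theorem mem_slab (h : S1 X w) : c ∈ slab X w ↔ t3 c ∈ cl X ∧ c.bot.top ∈ mx w :=
  (and_congr_left' t2_cl).trans (and_congr_right fun k => ex_in h k)

theorem mem_tcut (h : S1 X w) : c ∈ tcut X w ↔ t3 c ∈ X ∧ c.bot.top ∉ mx w :=
  and_congr_right fun k => by
    rw [← ex_in h (sub_cl k)]; push Not; rfl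

theorem mem_K (h : S1 X w) : c ∈ cl (tcut X w) ↔ t3 c ∈ cl X ∧ c.bot.bot ∉ mx w := by
  refine ⟨fun ⟨d, k, l⟩ => ?_, fun ⟨⟨u, hu, l⟩, k⟩ => ?_⟩
  · obtain ⟨a, m⟩ := (mem_tcut h).1 k
    exact ⟨⟨_, a, t3_mono l⟩, fun n => m (h.up (cl_low (tb_le d) (sub_cl a))
      ((bb_mono l).trans d.bot.bot_le_top) n)⟩
  · have p : Ch.pt c.bot.bot ≤ c.bot := Ch.pt_le.2 (Ch.bot_mem _)
    refine ⟨tp (bt c _ p) (tp c.top (tp c.top.top u l) (le_tp _ _ _)) (by simpa using le_tp _ _ _),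
      (mem_tcut h).2 ⟨?_, by simpa using k⟩, (le_bt _ _ _).trans (le_tp _ _ _)⟩
    show (Ch.top (Ch.top (Ch.top _))) ∈ X
    simpa using hu

/-- the level inside the slab -/
def lev (w : P → P → ℤ) (c : Ch (Ch (Ch P))) : ℤ := w c.bot.top.bot c.bot.bot.top

theorem mem_mvD (h : S1 X w) :
    c ∈ mvD (Ch.top ⁻¹' X) (Cv (cl X) w) ↔ c ∈ slab X w ∧ c ∈ cl (tcut X w) :=
  and_congr_right fun k =>
    have t := ((mem_slab h).1 k).1
    (ex_out h t).trans ((mem_K h).trans (and_iff_right t)).symm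

theorem mem_scar (h : S1 X w) :
    c ∈ scar X w b ↔ (c ∈ slab X w ∧ c ∈ cl (tcut X w)) ∧ lev w c = b :=
  and_congr_left' (mem_mvD h)

theorem lev_cases (h : S1 X w) (k : t3 c ∈ cl X) : lev w c = 0 ∨ lev w c = 1 :=
  h.cases (cl_low (bb_le c) k) (Ch.bot_le (c.bot.bot_le_top (Ch.top_mem _)))

theorem cover (h : S1 X w) (k : t3 c ∈ cl X) (n : c ∉ cl (tcut X w)) : c ∈ slab X w :=
  (mem_slab h).2 ⟨k, h.up (cl_low (tb_le c) k) c.bot.bot_le_top
    (by_contra fun m => n ((mem_K h).2 ⟨k, m⟩))⟩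

theorem scar_cases (h : S1 X w) (k : c ∈ slab X w) (l : c ∈ cl (tcut X w)) :
    c ∈ scar X w 0 ∨ c ∈ scar X w 1 :=
  (lev_cases h ((mem_K h).1 l).1).imp (fun e => (mem_scar h).2 ⟨⟨k, l⟩, e⟩)
    fun e => (mem_scar h).2 ⟨⟨k, l⟩, e⟩

theorem not_slab (h : S1 X w) (k : c ∈ tcut X w) : c ∉ slab X w :=
  fun l => ((mem_tcut h).1 k).2 ((mem_slab h).1 l).2

theorem flat_K (h : S1 X w) : Flat (cl (tcut X w)) (w3 w) := fun c _ d k l => by
  obtain ⟨a, m⟩ := (mem_K h).1 k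
  have t := cl_low (bb_le d) a
  have l' := Ch.top_mono (bb_mono l)
  exact le_antisymm (not_lt.1 fun n => m (h.pos t (bb_mono l (Ch.top_mem _)) (Ch.top_mem _) l' n))
    (h.nn _ _ t l')

theorem lev_add (h : S1 X w) (k : d ∈ slab X w) (l : c ≤ d) : w3 w c d = lev w d - lev w c := by
  obtain ⟨a, m⟩ := (mem_slab h).1 k
  have m : 0 < w d.bot.top.bot d.bot.top.top := m
  have t := cl_low (tb_le d) a
  have t' := cl_low (bb_le d) a
  have l1 : c.bot.top.bot ≤ d.bot.top.bot := Ch.bot_anti (bt_anti l)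
  have e1 := h.add t l1 d.bot.top.bot_le_top
  have e2 := h.le1 _ _ t (l1.trans d.bot.top.bot_le_top)
  have e3 := h.nn _ _ (cl_low d.bot.top.bot_le_top t) l1
  have e4 := h.add t' l1 (Ch.bot_le (d.bot.bot_le_top (Ch.top_mem _)))
  have e5 := h.add t' (Ch.bot_le (c.bot.bot_le_top (Ch.top_mem _))) (Ch.top_mono (bb_mono l))
  simp only [w3, pb, lev]
  omega

theorem drv (h : S1 X w) : ExOn (t3 ⁻¹' cl X) (w3 w - pb t3 w) :=
  ⟨fun c => -w c.bot.bot.top (t3 c), fun c _ d k l => by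
    have e1 := h.add k (bb_le c) (t3_mono l)
    have e2 := h.add k (Ch.top_mono (bb_mono l)) (bb_le d)
    simp only [w3, pb, Pi.sub_apply]
    omega⟩

/-- potentials on the cut manifold and on the slab glue -/
theorem glue (h : S1 X w) {Γ : Type} [AddCommGroup Γ] {z : _ → _ → Γ} {g g' : _ → Γ}
    (h1 : EqE (cl (tcut X w)) z (cb g)) (h2 : EqE (slab X w) z (cb g'))
    (h3 : ∀ c ∈ slab X w, c ∈ cl (tcut X w) → g c = g' c) : ExOn (t3 ⁻¹' cl X) z := by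
  refine ⟨fun c => if c ∈ cl (tcut X w) then g c else g' c, fun c _ d k l => ?_⟩
  by_cases a : d ∈ cl (tcut X w)
  · simp only [if_pos a, if_pos (cl_low l a)]
    exact h1 c (cl_low l a) d a l
  · have s := cover h k a
    have s' : c ∈ slab X w := mvS_low l s
    rw [h2 c s' d s l]
    by_cases a' : c ∈ cl (tcut X w)
    · simp only [if_neg a, if_pos a', h3 c s' a', cb]
    · simp only [if_neg a, if_neg a', cb]

theorem tc2 (hR : RevStmt) (h1 : Tc1Stmt) : Tc2Stmt := by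
  intro P _ _ X w r h
  obtain ⟨-, -, -, -, -, cS, -, -, -, sc⟩ := h1 P X w r h
  have c0 := (sc 0 (Or.inl rfl)).2.1
  have c1 := (sc 1 (Or.inr rfl)).2.1
  have s := h.toS1
  refine ⟨?_, drv s, flat_K s, fun ζ a ⟨g, hg⟩ => ?_, fun G _ ζ a => ?_⟩
  · have T0 := tr_top r.up h
    have u1 : IsUpperSet (Ch.top ⁻¹' X : Set (Ch P)) := r.up.preimage Ch.top_mono
    have T1 := (hR _ _ _ u1 T0.td.toS1).2.2.2.2.1 T0.td
    have T2 := (hR _ _ _ (u1.preimage Ch.top_mono) T1.td.toS1).2.2.2.2.1 T1.td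
    have T := tr_sd r.up (Set.empty_subset _) T0 (tr_sd u1 (Set.empty_subset _) T1 T2)
    exact ⟨((Desc.sd (lv0 P)).trans (Desc.sd _)).trans (Desc.sd _), T.td, T.flat, T.ines, T.drv⟩
  · obtain ⟨g', hg'⟩ := cS.ex ℤ ζ (cocOn_mono a fun _ k => ((mem_slab s).1 k).1)
    have cst : ∀ b, Ctr (scar X w b) → ∃ n, ∀ c ∈ scar X w b, g' c - g c = n := fun b k =>
      let ⟨c, hc⟩ := k.ne
      ⟨_, fun d hd => (k.conn d hd c hc).eq (g := fun c => g' c - g c) fun x p y q l => by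
        have p := ((mem_scar s).1 p).1
        have q := ((mem_scar s).1 q).1
        have := hg x p.2 y q.2 l
        have := hg' x p.1 y q.1 l
        omega⟩
    obtain ⟨n0, e0⟩ := cst 0 c0
    obtain ⟨n1, e1⟩ := cst 1 c1
    refine ⟨n1 - n0, glue s (g := fun c => g c + n0) (g' := fun c => g' c - (n1 - n0) * lev w c)
      (fun x p y q l => ?_) (fun x p y q l => ?_) fun c p q => ?_⟩
    · simp only [Pi.sub_apply, Pi.smul_apply, flat_K s x p y q l, hg x p y q l, cb]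
      simp
    · simp only [Pi.sub_apply, Pi.smul_apply, lev_add s q l, hg' x p y q l, cb, smul_eq_mul]
      ring
    · rcases scar_cases s p q with k | k
      · rw [((mem_scar s).1 k).2, ← e0 c k]; ring
      · rw [((mem_scar s).1 k).2, ← e1 c k]; ring
  · obtain ⟨g0, e0⟩ := c0.ex G ζ (cocOn_mono a fun _ k => ((mem_scar s).1 k).1.2)
    obtain ⟨g1, e1⟩ := c1.ex G ζ (cocOn_mono a fun _ k => ((mem_scar s).1 k).1.2)
    let g : Ch (Ch (Ch P)) → G := fun c => if lev w c = 0 then g0 c else g1 c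
    have e : ∀ x y, x ≤ y → y ∈ slab X w → y ∈ cl (tcut X w) → ζ x y = g y - g x := by
      intro x y l p q
      have p' : x ∈ slab X w := mvS_low l p
      have q' := cl_low l q
      have i := lev_add s p l
      rw [flat_K s x q' y q l] at i
      rcases lev_cases s ((mem_K s).1 q).1 with k | k
      · have k' : lev w x = 0 := by omega
        simp only [g, if_pos k, if_pos k']
        exact e0 x ((mem_scar s).2 ⟨⟨p', q'⟩, k'⟩) y ((mem_scar s).2 ⟨⟨p, q⟩, k⟩) l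
      · have k' : lev w x = 1 := by omega
        simp only [g, k, k', one_ne_zero, if_false]
        exact e1 x ((mem_scar s).2 ⟨⟨p', q'⟩, k'⟩) y ((mem_scar s).2 ⟨⟨p, q⟩, k⟩) l
    refine ⟨fun x y => if y ∈ cl (tcut X w) then ζ x y - (g y - g x) else 0,
      fun x _ y _ v k l m => ?_, -g, fun x _ y q _ => ?_⟩
    · by_cases i : v ∈ cl (tcut X w)
      · have j := cl_low m i
        simp only [if_pos i, if_pos j, a x (cl_low l j) y j v i l m]
        abel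
      · simp only [if_neg i, add_zero]
        split_ifs with j
        · rw [e x y l (mvS_low m (cover s k i)) j, sub_self]
        · rfl
    · simp only [Pi.sub_apply, Pi.neg_apply, if_pos q]
      abel

end Crest.Agent.X212.Tcc1
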